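import Vale.Agent.P325.H111.K2.Stmts

/-!
# Package K2-E: energy, displacement, oddness
-/

namespace Vale.Agent.P325.H685.K2

open Finset Vale.Agent.P325.K2

/-! ### The triangle wave -/

theorem tw_neg {L : ℕ} (hL : 0 < L) (v : ℤ) : tw L (-v) = - tw L v := by
  unfold tw
  have hL' : (0 : ℤ) < L := by exact_mod_cast hL
  have h0 := Int.emod_nonneg (v + L) (show (4 * (L : ℤ)) ≠ 0 by omega)
  have h1 := Int.emod_lt_of_pos (v + L) (show (0 : ℤ) < 4 * (L : ℤ) by omega)
  have h2 := Int.emod_add_mul_ediv (v + L) (4 * L)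
  set m := (v + L) % (4 * (L : ℤ)) with hm
  set q := (v + L) / (4 * (L : ℤ)) with hq
  rcases le_or_gt m (2 * (L : ℤ)) with h3 | h3
  · have h4 : (-v + L) % (4 * (L : ℤ)) = 2 * L - m := by
      have h5 : -v + L = (2 * L - m) + (4 * (L : ℤ)) * (-q) := by linarith
      rw [h5, Int.add_mul_emod_self_left]
      exact Int.emod_eq_of_lt (by omega) (by omega)
    rw [h4, show (2 * (L : ℤ) - m - 2 * L) = -m by ring, abs_neg, abs_of_nonneg h0,
      abs_of_nonpos (by omega : m - 2 * (L : ℤ) ≤ 0)]
    ring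
  · have h4 : (-v + L) % (4 * (L : ℤ)) = 6 * L - m := by
      have h5 : -v + L = (6 * L - m) + (4 * (L : ℤ)) * (-q - 1) := by linarith
      rw [h5, Int.add_mul_emod_self_left]
      exact Int.emod_eq_of_lt (by omega) (by omega)
    rw [h4, abs_of_nonneg (by omega : 0 ≤ 6 * (L : ℤ) - m - 2 * L),
      abs_of_nonneg (by omega : 0 ≤ m - 2 * (L : ℤ))]
    ring

theorem tw_abs {L : ℕ} (hL : 0 < L) (v : ℤ) : |tw L v| ≤ L := by
  unfold tw
  have h0 := Int.emod_nonneg (v + L) (show (4 * (L : ℤ)) ≠ 0 by omega)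
  have h1 := Int.emod_lt_of_pos (v + L) (show (0 : ℤ) < 4 * (L : ℤ) by omega)
  rw [abs_le]
  have h3 : |(v + L) % (4 * (L : ℤ)) - 2 * L| ≤ 2 * L := by
    rw [abs_le]; constructor <;> omega
  have h4 := abs_nonneg ((v + L) % (4 * (L : ℤ)) - 2 * L)
  constructor <;> omega

theorem tw_succ {L : ℕ} (hL : 0 < L) (v : ℤ) : |tw L (v + 1) - tw L v| ≤ 1 := by
  unfold tw
  have hL' : (0 : ℤ) < L := by exact_mod_cast hL
  have h0 := Int.emod_nonneg (v + L) (show (4 * (L : ℤ)) ≠ 0 by omega)
  have h1 := Int.emod_lt_of_pos (v + L) (show (0 : ℤ) < 4 * (L : ℤ) by omega)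
  have h2 := Int.emod_add_mul_ediv (v + L) (4 * L)
  set m := (v + L) % (4 * (L : ℤ)) with hm
  set q := (v + L) / (4 * (L : ℤ)) with hq
  rcases lt_or_ge (m + 1) (4 * (L : ℤ)) with h3 | h3
  · have h4 : (v + 1 + L) % (4 * (L : ℤ)) = m + 1 := by
      have h5 : v + 1 + L = (m + 1) + (4 * (L : ℤ)) * q := by linarith
      rw [h5, Int.add_mul_emod_self_left]
      exact Int.emod_eq_of_lt (by omega) (by omega)
    rw [h4, abs_le]
    constructor <;> rcases abs_cases (m + 1 - 2 * (L : ℤ)) with h | h <;>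
      rcases abs_cases (m - 2 * (L : ℤ)) with h' | h' <;> omega
  · have h4 : (v + 1 + L) % (4 * (L : ℤ)) = 0 := by
      have h5 : v + 1 + L = 0 + (4 * (L : ℤ)) * (q + 1) := by linarith
      rw [h5, Int.add_mul_emod_self_left]
      exact Int.emod_eq_of_lt (by omega) (by omega)
    rw [h4, abs_le]
    constructor <;> rcases abs_cases (0 - 2 * (L : ℤ)) with h | h <;>
      rcases abs_cases (m - 2 * (L : ℤ)) with h' | h' <;> omega

theorem tw_two {L : ℕ} (hL : 0 < L) (v : ℤ) : |tw L (v + 2) - tw L v| ≤ 2 := by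
  have h1 := tw_succ hL v
  have h2 := tw_succ hL (v + 1)
  rw [show v + 1 + 1 = v + 2 by ring] at h2
  rw [abs_le] at *
  constructor <;> linarith [h1.1, h1.2, h2.1, h2.2]

theorem sgz_not (b : Bool) : sgz (!b) = - sgz b := by cases b <;> simp [sgz]

theorem xv_abs {L : ℕ} (hL : 0 < L) (s : Fin (L * L) → Bool) : |xv L s| ≤ L := tw_abs hL _

theorem xv_not {L : ℕ} (hL : 0 < L) (s : Fin (L * L) → Bool) :
    xv L (fun i => !s i) = - xv L s := by
  unfold xv
  rw [← tw_neg hL]
  congr 1
  rw [← sum_neg_distrib]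
  exact sum_congr rfl fun i _ => sgz_not _

theorem xv_update {L : ℕ} (hL : 0 < L) (s : Fin (L * L) → Bool) (i : Fin (L * L)) :
    |xv L (Function.update s i (!s i)) - xv L s| ≤ 2 := by
  have h1 : ∑ j, sgz (Function.update s i (!s i) j) = ∑ j, sgz (s j) - 2 * sgz (s i) := by
    rw [← add_sum_erase univ _ (mem_univ i), ← add_sum_erase univ (fun j => sgz (s j)) (mem_univ i),
      Function.update_self, sgz_not]
    have : ∀ j ∈ univ.erase i, sgz (Function.update s i (!s i) j) = sgz (s j) := by
      intro j hj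
      rw [Function.update_of_ne (ne_of_mem_erase hj)]
    rw [sum_congr rfl this]
    ring
  unfold xv
  rw [h1]
  cases h : s i
  · simpa [sgz] using tw_two hL (∑ j, sgz (s j))
  · have h2 := tw_two hL (∑ j, sgz (s j) - 2)
    rw [sub_add_cancel, abs_sub_comm] at h2
    simpa [sgz] using h2

/-! ### Sums and tables -/

section

variable {n L : ℕ} [NeZero n] [NeZero L] {K V : Type}

omit [NeZero n] in
theorem Ssum_not (a : Fin n → Fin L) (y : Bt n L K → Bool) (κ : Fin n → K) :
    Ssum a (fun b => !y b) κ = - Ssum a y κ := by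
  unfold Ssum
  rw [← sum_neg_distrib]
  refine sum_congr rfl fun k _ => ?_
  rw [xv_not (NeZero.pos L)]
  ring

theorem tbit_not (a : Fin n → Fin L) (y : Bt n L K → Bool) (κ : Fin n → K) :
    tbit a (fun b => !y b) κ = !tbit a y κ := by
  unfold tbit
  rw [Ssum_not]
  rcases lt_trichotomy (Ssum a y κ) 0 with h | h | h
  · simp [h, not_lt.2 h.le]
  · simp [h]
  · simp [h, not_lt.2 h.le]

/-- If two sums are close and the first one is not small, the table entries agree. -/
theorem tbit_eq_of_close (a a' : Fin n → Fin L) (y y' : Bt n L K → Bool) (κ : Fin n → K)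
    (h : |Ssum a' y' κ - Ssum a y κ| ≤ 2 * L) (hn : ¬ near a y κ) :
    tbit a' y' κ = tbit a y κ := by
  unfold near at hn
  push Not at hn
  rw [abs_le] at h
  rcases lt_abs.1 hn with h1 | h1
  · have h2 : 0 < Ssum a' y' κ := by linarith [h.1]
    have h3 : 0 < Ssum a y κ := by
      have : (0 : ℤ) ≤ L := by positivity
      linarith
    unfold tbit
    rw [if_pos h2, if_pos h3]
  · have h2 : Ssum a' y' κ < 0 := by linarith [h.2]
    have h3 : Ssum a y κ < 0 := by
      have : (0 : ℤ) ≤ L := by positivity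
      linarith
    unfold tbit
    rw [if_neg (not_lt.2 h2.le), if_pos h2, if_neg (not_lt.2 h3.le), if_pos h3]

variable [DecidableEq K]

omit [NeZero n] [NeZero L] in
theorem flp_ne (y : Bt n L K → Bool) {b b' : Bt n L K} (h : b' ≠ b) : flp y b b' = y b' := by
  unfold flp
  exact Function.update_of_ne h _ _

omit [NeZero n] in
theorem Ssum_flp (a : Fin n → Fin L) (y : Bt n L K → Bool) (b : Bt n L K) (κ : Fin n → K) :
    |Ssum a (flp y b) κ - Ssum a y κ| ≤ 2 * L := by
  have h1 : Ssum a (flp y b) κ - Ssum a y κ =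
      (a b.1 : ℤ) * ((xv L fun i => flp y b (b.1, κ b.1, i)) - xv L fun i => y (b.1, κ b.1, i)) := by
    unfold Ssum
    rw [← sum_sub_distrib, ← add_sum_erase univ _ (mem_univ b.1), ← mul_sub]
    have : ∀ k ∈ univ.erase b.1, (a k : ℤ) * (xv L fun i => flp y b (k, κ k, i)) -
        (a k : ℤ) * (xv L fun i => y (k, κ k, i)) = 0 := by
      intro k hk
      rw [← mul_sub]
      have h2 : (fun i => flp y b (k, κ k, i)) = fun i => y (k, κ k, i) := by
        funext i
        refine flp_ne y ?_
        intro h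
        exact (ne_of_mem_erase hk) (congrArg Prod.fst h)
      rw [h2, sub_self, mul_zero]
    rw [sum_congr rfl this, sum_const_zero, add_zero]
  rw [h1, abs_mul]
  have h3 : |((xv L fun i => flp y b (b.1, κ b.1, i)) - xv L fun i => y (b.1, κ b.1, i))| ≤ 2 := by
    by_cases hb : κ b.1 = b.2.1
    · have h4 : (fun i => flp y b (b.1, κ b.1, i)) =
          Function.update (fun i => y (b.1, κ b.1, i)) b.2.2 (!y (b.1, κ b.1, b.2.2)) := by
        funext i
        by_cases hi : i = b.2.2
        · subst hi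
          rw [Function.update_self, hb]
          unfold flp
          rw [show (b.1, b.2.1, b.2.2) = b from rfl, Function.update_self]
        · rw [Function.update_of_ne hi]
          refine flp_ne y ?_
          intro h
          exact hi (congrArg (fun z : Bt n L K => z.2.2) h)
      rw [h4]
      exact xv_update (NeZero.pos L) _ _
    · have h4 : (fun i => flp y b (b.1, κ b.1, i)) = fun i => y (b.1, κ b.1, i) := by
        funext i
        refine flp_ne y ?_
        intro h
        exact hb (congrArg (fun z : Bt n L K => z.2.1) h)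
      rw [h4, sub_self, abs_zero]
      norm_num
  have h5 : |((a b.1 : ℕ) : ℤ)| ≤ L := by
    rw [Nat.abs_cast]
    exact_mod_cast (a b.1).2.le
  calc |((a b.1 : ℕ) : ℤ)| *
        |((xv L fun i => flp y b (b.1, κ b.1, i)) - xv L fun i => y (b.1, κ b.1, i))|
      ≤ L * 2 := mul_le_mul h5 h3 (abs_nonneg _) (by positivity)
    _ = 2 * L := by ring

theorem tbit_flp_of_ne (a : Fin n → Fin L) (y : Bt n L K → Bool) (b : Bt n L K) (κ : Fin n → K)
    (hb : b.2.1 ≠ κ b.1) : tbit a (flp y b) κ = tbit a y κ := by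
  have h1 : ∀ k i, flp y b (k, κ k, i) = y (k, κ k, i) := by
    intro k i
    refine flp_ne y ?_
    intro h
    apply hb
    rw [← h]
  unfold tbit Ssum
  simp only [h1]

omit [NeZero n] [DecidableEq K] in
theorem Ssum_adj {a a' : Fin n → Fin L} (h : Adj1 a a') (y : Bt n L K → Bool) (κ : Fin n → K) :
    |Ssum a' y κ - Ssum a y κ| ≤ 2 * L := by
  obtain ⟨k, hk, hd⟩ := h
  have h1 : Ssum a' y κ - Ssum a y κ =
      (((a' k : ℕ) : ℤ) - ((a k : ℕ) : ℤ)) * xv L fun i => y (k, κ k, i) := by
    unfold Ssum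
    rw [← sum_sub_distrib, ← add_sum_erase univ _ (mem_univ k), ← sub_mul]
    have : ∀ k' ∈ univ.erase k, (a' k' : ℤ) * (xv L fun i => y (k', κ k', i)) -
        (a k' : ℤ) * (xv L fun i => y (k', κ k', i)) = 0 := by
      intro k' hk'
      rw [hk k' (ne_of_mem_erase hk'), sub_self]
    rw [sum_congr rfl this, sum_const_zero, add_zero]
  rw [h1, abs_mul, abs_sub_comm, hd, one_mul]
  have h2 := xv_abs (NeZero.pos L) fun i => y (k, κ k, i)
  have : (0 : ℤ) ≤ L := by positivity
  linarith

end

/-! ### Changes of a table at small sums -/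

section

variable {n L : ℕ} [NeZero n] [NeZero L] {K V : Type} [Fintype V] [DecidableEq V]

open Classical in
/-- The small sums. -/
noncomputable def nr (adr : V → Fin n → K) (a : Fin n → Fin L) (y : Bt n L K → Bool) : Finset V :=
  {ν | near a y (adr ν)}

open Classical in
/-- The bound at a point. -/
noncomputable def bd (Φ : (V → Bool) → Bool) (adr : V → Fin n → K) (a : Fin n → Fin L)
    (y : Bt n L K → Bool) : ℝ :=
  (∑ ν, if near a y (adr ν) ∧ pivt Φ adr a y ν then (1 : ℝ) else 0) +
    ∑ ν : V, ∑ ν' : V, if ν = ν' then 0 else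
      if near a y (adr ν) ∧ near a y (adr ν') then (1 : ℝ) else 0

theorem bd_nonneg (Φ : (V → Bool) → Bool) (adr : V → Fin n → K) (a : Fin n → Fin L)
    (y : Bt n L K → Bool) : 0 ≤ bd Φ adr a y := by
  classical
  unfold bd
  refine add_nonneg (sum_nonneg fun _ _ => ?_) (sum_nonneg fun _ _ => sum_nonneg fun _ _ => ?_)
  · split_ifs <;> norm_num
  · split_ifs <;> norm_num

omit [NeZero n] [NeZero L] [DecidableEq V] in
theorem mem_nr {adr : V → Fin n → K} {a : Fin n → Fin L} {y : Bt n L K → Bool} {ν : V} :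
    ν ∈ nr adr a y ↔ near a y (adr ν) := by
  classical
  simp [nr]

/-- If the value changes when the table is changed at small sums only, the number of small sums is
bounded by `bd`. -/
theorem card_le_bd (Φ : (V → Bool) → Bool) (adr : V → Fin n → K) (a : Fin n → Fin L)
    (y : Bt n L K → Bool) (φ' : V → Bool)
    (h1 : ∀ ν, φ' ν ≠ tbl a y adr ν → near a y (adr ν)) (h2 : Φ φ' ≠ Φ (tbl a y adr)) :
    1 ≤ #(nr adr a y) ∧ (#(nr adr a y) : ℝ) ≤ bd Φ adr a y := by
  classical
  have h3 : ∃ ν, φ' ν ≠ tbl a y adr ν := by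
    by_contra h
    push Not at h
    exact h2 (by rw [funext h])
  obtain ⟨ν₀, hν₀⟩ := h3
  have hmem : ν₀ ∈ nr adr a y := mem_nr.2 (h1 ν₀ hν₀)
  have h4 : 1 ≤ #(nr adr a y) := card_pos.2 ⟨ν₀, hmem⟩
  refine ⟨h4, ?_⟩
  have hs1 : 0 ≤ ∑ ν, if near a y (adr ν) ∧ pivt Φ adr a y ν then (1 : ℝ) else 0 :=
    sum_nonneg fun _ _ => by split_ifs <;> norm_num
  have hs2 : 0 ≤ ∑ ν : V, ∑ ν' : V, if ν = ν' then 0 else
      if near a y (adr ν) ∧ near a y (adr ν') then (1 : ℝ) else 0 :=
    sum_nonneg fun _ _ => sum_nonneg fun _ _ => by split_ifs <;> norm_num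
  rcases h4.eq_or_lt with h5 | h5
  · -- one small sum
    have h6 : ∀ ν, near a y (adr ν) → ν = ν₀ := by
      intro ν hν
      obtain ⟨z, hz⟩ := card_eq_one.1 h5.symm
      have e1 := mem_nr.2 hν
      rw [hz, mem_singleton] at e1
      rw [hz, mem_singleton] at hmem
      rw [e1, hmem]
    have h7 : φ' = flipAt (tbl a y adr) ν₀ := by
      funext ν
      unfold flipAt
      by_cases h : ν = ν₀
      · subst h
        rw [Function.update_self]
        cases h8 : φ' ν <;> cases h9 : tbl a y adr ν <;> simp_all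
      · rw [Function.update_of_ne h]
        by_contra h'
        exact h (h6 ν (h1 ν h'))
    have h8 : near a y (adr ν₀) ∧ pivt Φ adr a y ν₀ := by
      refine ⟨mem_nr.1 hmem, ?_⟩
      unfold pivt
      rw [← h7]
      exact h2
    have h9 : (1 : ℝ) ≤ ∑ ν, if near a y (adr ν) ∧ pivt Φ adr a y ν then (1 : ℝ) else 0 := by
      calc (1 : ℝ) = if near a y (adr ν₀) ∧ pivt Φ adr a y ν₀ then (1 : ℝ) else 0 := by
            rw [if_pos h8]
        _ ≤ _ := single_le_sum
          (f := fun ν => if near a y (adr ν) ∧ pivt Φ adr a y ν then (1 : ℝ) else 0)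
          (fun _ _ => by split_ifs <;> norm_num) (mem_univ ν₀)
    unfold bd
    rw [← h5]
    push_cast
    linarith
  · -- several small sums
    have h6 : (#(nr adr a y) : ℝ) ≤ ∑ ν : V, ∑ ν' : V, if ν = ν' then 0 else
        if near a y (adr ν) ∧ near a y (adr ν') then (1 : ℝ) else 0 := by
      calc (#(nr adr a y) : ℝ) = ∑ ν ∈ nr adr a y, (1 : ℝ) := by simp
        _ ≤ ∑ ν ∈ nr adr a y, ∑ ν' : V, (if ν = ν' then 0 else
            if near a y (adr ν) ∧ near a y (adr ν') then (1 : ℝ) else 0) := by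
          refine sum_le_sum fun ν hν => ?_
          obtain ⟨ν', hν', hne⟩ := exists_mem_ne h5 ν
          calc (1 : ℝ) = (if ν = ν' then 0 else
              if near a y (adr ν) ∧ near a y (adr ν') then (1 : ℝ) else 0) := by
                rw [if_neg (Ne.symm hne), if_pos ⟨mem_nr.1 hν, mem_nr.1 hν'⟩]
            _ ≤ _ := single_le_sum
              (f := fun ν' => if ν = ν' then 0 else
                if near a y (adr ν) ∧ near a y (adr ν') then (1 : ℝ) else 0)
              (fun _ _ => by split_ifs <;> norm_num) (mem_univ ν')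
        _ ≤ _ := sum_le_univ_sum_of_nonneg fun ν => sum_nonneg fun _ _ => by
            split_ifs <;> norm_num
    unfold bd
    linarith

variable [Fintype K] [DecidableEq K]

theorem Ex_bd (Φ : (V → Bool) → Bool) (adr : V → Fin n → K) (a : Fin n → Fin L) :
    Ex (bd Φ adr a) = cost1 Φ adr a + pairs n L adr a := by
  classical
  unfold bd
  rw [Ex_add]
  congr 1
  · unfold cost1 Pr
    rw [Ex_sum]
    refine sum_congr rfl fun ν _ => Ex_congr fun y => ?_
    by_cases h : near a y (adr ν) ∧ pivt Φ adr a y ν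
    · rw [if_pos h, if_pos h]
    · rw [if_neg h, if_neg h]
  · unfold pairs
    rw [Ex_sum]
    refine sum_congr rfl fun ν _ => ?_
    rw [Ex_sum]
    refine sum_congr rfl fun ν' _ => ?_
    by_cases h : ν = ν'
    · simp only [if_pos h]
      exact Ex_const 0
    · simp only [if_neg h]
      unfold Pr
      refine Ex_congr fun y => ?_
      by_cases h' : near a y (adr ν) ∧ near a y (adr ν')
      · rw [if_pos h', if_pos h']
      · rw [if_neg h', if_neg h']

end

/-- The displacement. -/
theorem disp : DispThm := by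
  intro n L _ _ K V _ _ _ _ Φ adr a a' h
  classical
  rw [← Ex_bd, Pr]
  refine Ex_mono fun y => ?_
  split_ifs with h1
  · have h2 := card_le_bd Φ adr a y (tbl a' y adr) (fun ν hν => by
      by_contra h3
      exact hν (tbit_eq_of_close a a' y y (adr ν) (Ssum_adj h y (adr ν)) h3)) (fun h3 => by
      apply h1
      unfold FF
      rw [h3])
    calc (1 : ℝ) ≤ #(nr adr a y) := by exact_mod_cast h2.1
      _ ≤ _ := h2.2
  · exact bd_nonneg Φ adr a y

/-- The energy. -/
theorem energyThm : EnergyThm := by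
  intro n L _ _ K V G _ _ _ _ _ Φ adr grp gv hg a
  classical
  rw [← Ex_bd, ← Ex_const_mul]
  unfold energy
  refine Ex_mono fun y => ?_
  -- a pivotal bit belongs to the address of a small sum
  have h1 : ∀ b ∈ piv (FF Φ adr a) y, Φ (tbl a (flp y b) adr) ≠ Φ (tbl a y adr) := by
    intro b hb
    simp only [piv, mem_filter, mem_univ, true_and] at hb
    intro h
    apply hb
    unfold FF
    rw [h]
  have h2 : ∀ b : Bt n L K, ∀ ν, tbl a (flp y b) adr ν ≠ tbl a y adr ν →
      near a y (adr ν) ∧ b.2.1 = adr ν b.1 := by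
    intro b ν hν
    refine ⟨?_, ?_⟩
    · by_contra h3
      exact hν (tbit_eq_of_close a a y (flp y b) (adr ν) (Ssum_flp a y b (adr ν)) h3)
    · by_contra h3
      exact hν (tbit_flp_of_ne a y b (adr ν) h3)
  rcases (piv (FF Φ adr a) y).eq_empty_or_nonempty with h3 | ⟨b₀, hb₀⟩
  · rw [h3]
    simp only [filter_empty, card_empty, Nat.cast_zero, Real.sqrt_zero, sum_const_zero]
    have := bd_nonneg Φ adr a y
    positivity
  have h4 := card_le_bd Φ adr a y (tbl a (flp y b₀) adr) (fun ν hν => (h2 b₀ ν hν).1) (h1 b₀ hb₀)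
  -- the number of pivotal bits of a group
  let p : G → ℕ := fun g => #{ν ∈ nr adr a y | gv ν = g}
  have h5 : ∀ g, #{i ∈ piv (FF Φ adr a) y | grp i = g} ≤ p g * (n * (L * L)) := by
    intro g
    have h6 : ({i ∈ piv (FF Φ adr a) y | grp i = g} : Finset (Bt n L K)) ⊆
        ({ν ∈ nr adr a y | gv ν = g} : Finset V).biUnion fun ν =>
          (univ : Finset (Fin n × Fin (L * L))).image fun q => (q.1, adr ν q.1, q.2) := by
      intro b hb
      rw [mem_filter] at hb
      obtain ⟨hb1, hb2⟩ := hb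
      have h7 : ∃ ν, tbl a (flp y b) adr ν ≠ tbl a y adr ν := by
        by_contra h
        push Not at h
        exact h1 b hb1 (by rw [funext h])
      obtain ⟨ν, hν⟩ := h7
      obtain ⟨h8, h9⟩ := h2 b ν hν
      have h10 : b = (b.1, adr ν b.1, b.2.2) := by
        rw [← h9]
      rw [mem_biUnion]
      refine ⟨ν, ?_, ?_⟩
      · rw [mem_filter]
        refine ⟨mem_nr.2 h8, ?_⟩
        rw [← hb2, h10]
        exact (hg ν b.1 b.2.2).symm
      · rw [mem_image]
        exact ⟨(b.1, b.2.2), mem_univ _, h10.symm⟩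
    refine (card_le_card h6).trans (card_biUnion_le.trans ?_)
    calc ∑ ν ∈ nr adr a y with gv ν = g,
          #((univ : Finset (Fin n × Fin (L * L))).image fun q => (q.1, adr ν q.1, q.2))
        ≤ ∑ ν ∈ nr adr a y with gv ν = g, n * (L * L) := by
          refine sum_le_sum fun ν _ => card_image_le.trans ?_
          simp
      _ = p g * (n * (L * L)) := by rw [sum_const, smul_eq_mul]
  have h6 : ∀ g, Real.sqrt (#{i ∈ piv (FF Φ adr a) y | grp i = g}) ≤
      p g * (L * Real.sqrt n) := by
    intro g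
    calc Real.sqrt (#{i ∈ piv (FF Φ adr a) y | grp i = g})
        ≤ Real.sqrt ((p g : ℝ) * (n * (L * L))) := by
          refine Real.sqrt_le_sqrt ?_
          exact_mod_cast h5 g
      _ ≤ Real.sqrt ((p g : ℝ) ^ 2 * (n * (L * L))) := by
          refine Real.sqrt_le_sqrt (mul_le_mul_of_nonneg_right ?_ (by positivity))
          rcases Nat.eq_zero_or_pos (p g) with h | h
          · rw [h]; norm_num
          · have : (1 : ℝ) ≤ p g := by exact_mod_cast h
            nlinarith
      _ = p g * (L * Real.sqrt n) := by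
          rw [show (p g : ℝ) ^ 2 * (n * (L * L)) = (p g * L) ^ 2 * n by ring,
            Real.sqrt_mul (by positivity), Real.sqrt_sq (by positivity)]
          ring
  calc ∑ g, Real.sqrt (#{i ∈ piv (FF Φ adr a) y | grp i = g})
      ≤ ∑ g, (p g : ℝ) * (L * Real.sqrt n) := sum_le_sum fun g _ => h6 g
    _ = (#(nr adr a y) : ℝ) * (L * Real.sqrt n) := by
        rw [← sum_mul]
        congr 1
        have h7 := card_eq_sum_card_fiberwise (s := nr adr a y) (t := (univ : Finset G))
          (f := gv) (fun _ _ => mem_coe.2 (mem_univ _))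
        rw [h7]
        push_cast
        rfl
    _ ≤ bd Φ adr a y * (L * Real.sqrt n) :=
        mul_le_mul_of_nonneg_right h4.2 (by positivity)
    _ = L * Real.sqrt n * bd Φ adr a y := by ring

/-- Oddness. -/
theorem oddFF : OddFF := by
  intro n L _ _ K V Φ adr a hΦ y
  unfold FF
  have h1 : tbl a (fun i => !y i) adr = fun ν => !tbl a y adr ν := by
    funext ν
    exact tbit_not a y (adr ν)
  rw [h1, hΦ]
  cases Φ (tbl a y adr) <;> simp [sg]

end Vale.Agent.P325.H685.K2
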